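import Crest.Agent.X212.Loc49.Cnn
import Crest.Agent.X212.Geo46.Defs
import Crest.Agent.R096.Bd1_416

/-!
Row 212, layer T, package G-LOC (helper49), part 3: the local manifold conditions.
-/

set_option autoImplicit false
set_option linter.style.longLine false
set_option linter.unusedSectionVars false

open Set Metric Filter Topology Module

namespace Crest.Agent.X212.Loc49

open Crest.Agent.R096.Ce_537 Crest.Agent.X212.Tw9 Crest.Agent.X212.Dsc4 Crest.Agent.R096.Bd_416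
open Crest.Agent.X212.Prd34 (V P up fl lv Mf)
open Crest.Agent.X212.Dsc37 (Dat Mt)

variable {E : Type} [NormedAddCommGroup E] [NormedSpace ℝ E] {ι : Type} [Fintype ι] [DecidableEq ι]
  {X : Set E} {T : Tri ι X} {M dM : Set E} {x : E}

theorem supp_eq (y : E) : Geo46.supp T y = sp T y := by
  ext u; simp [Geo46.supp, sp]

theorem simp_eq : Geo46.simp T = KK T X := by
  ext s
  constructor
  · rintro ⟨h1, y, hy, h2⟩
    exact down subC_self ⟨y, hy, rfl⟩ (supp_eq (T := T) y ▸ h2) h1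
  · rintro ⟨y, hy, rfl⟩
    exact ⟨sp_nonempty hy, y, hy, (supp_eq y).ge⟩

theorem simpIn_eq {A : Set E} (h : T.Sub A) : Geo46.simpIn T A = KK T (X ∩ A) := by
  ext s
  constructor
  · rintro ⟨h1, h2⟩
    rw [simp_eq] at h1
    obtain ⟨y, hy, rfl⟩ := h1
    exact ⟨y, ⟨hy, h2 ⟨hy, fun u hu => by rwa [supp_eq] at hu⟩⟩, rfl⟩
  · rintro ⟨y, hy, rfl⟩
    refine ⟨by rw [simp_eq]; exact ⟨y, hy.1, rfl⟩, fun z hz => ?_⟩
    exact ((subC_inter h).cl y hy z hz.1 fun u hu => hz.2 u (by rwa [supp_eq])).2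

theorem ropen_nhds {Z : Type*} [TopologicalSpace Z] {W O : Set Z} (h : ROpen W O) {z : Z} (hz : z ∈ O) :
    O ⊆ W ∧ O ∈ 𝓝[W] z := by
  obtain ⟨A, hA, rfl⟩ := h
  exact ⟨inter_subset_right, by rw [inter_comm]; exact inter_mem_nhdsWithin _ (hA.mem_nhds hz.1)⟩

theorem ch_back (k : Ch M dM) (hx : x ∈ k.O) (hg : X ∈ 𝓝[M] x) :
    ∀ᶠ z in 𝓝[up] (k.e.f x), z ∈ k.O' ∧ k.e.g z ∈ X := by
  have h1 : Tendsto k.e.g (𝓝[k.O'] (k.e.f x)) (𝓝[M] x) := by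
    have := (k.e.pg.1 _ (k.e.mf hx)).tendsto_nhdsWithin (k.e.mg.mono_right (ropen_nhds k.opn hx).1)
    rwa [k.e.li x hx] at this
  have h2 := (ropen_nhds k.opn' (k.e.mf hx)).2
  exact Eventually.and h2 ((h1.eventually hg).filter_mono (nhdsWithin_le_iff.2 h2))

theorem cont_single (z : V) : Continuous fun t : ℝ => (z + Pi.single 2 t : V) :=
  continuous_const.add (ContinuousLinearMap.single ℝ (fun _ : Fin 3 => ℝ) 2).continuous

theorem up_nhds {z : V} (hz : z ∈ up) : up ∈ 𝓝 z ↔ z 2 ≠ 0 := by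
  constructor
  · intro h h0
    have h1 : Tendsto (fun t : ℝ => z + Pi.single 2 t) (𝓝 0) (𝓝 z) :=
      (cont_single z).tendsto' 0 z (by simp)
    obtain ⟨t, h2, h3⟩ := ((show ∀ᶠ t in 𝓝[<] (0 : ℝ), _ from
      mem_nhdsWithin_of_mem_nhds (h1 h)).and self_mem_nhdsWithin).exists
    have h4 : 0 ≤ (z + Pi.single 2 t : V) 2 := h2
    simp only [Pi.add_apply, h0, Pi.single_eq_same, zero_add] at h4
    exact absurd h4 (not_le.2 h3)
  · intro h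
    exact mem_of_superset ((isOpen_lt continuous_const (continuous_apply 2)).mem_nhds
      (lt_of_le_of_ne hz (Ne.symm h))) fun y hy => le_of_lt (show 0 < y 2 from hy)

theorem isClosed_up : IsClosed up := isClosed_le continuous_const (continuous_apply 2)

theorem convex_up : Convex ℝ up := convex_halfSpace_ge (f := fun y : V => y 2)
  ⟨fun _ _ => rfl, fun _ _ => rfl⟩ 0

theorem up_dense : up ⊆ closure (interior up) := fun z hz => by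
  have h1 : Tendsto (fun t : ℝ => z + Pi.single 2 t) (𝓝[>] 0) (𝓝 z) :=
    ((cont_single z).tendsto' 0 z (by simp)).mono_left nhdsWithin_le_nhds
  refine mem_closure_of_tendsto h1 ?_
  filter_upwards [self_mem_nhdsWithin] with t ht
  have h2 : 0 < (z + Pi.single 2 t : V) 2 := by
    simp only [Pi.add_apply, Pi.single_eq_same]
    exact add_pos_of_nonneg_of_pos hz ht
  exact mem_interior_iff_mem_nhds.2 ((up_nhds h2.le).2 h2.ne')

theorem exists_gm3 (hM : MfE M dM) (hXM : X ⊆ M) (hx : x ∈ X) (hg : X ∈ 𝓝[M] x) :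
    ∃ g : Gm 3 X up x, (up ∈ 𝓝 (g.e.f x) ↔ x ∉ dM) := by
  obtain ⟨k, hk⟩ := hM.2 x (hXM hx)
  have s1 := (ropen_nhds k.opn' (k.e.mf hk)).1
  refine ⟨⟨k.O ∩ X, _, k.e.restrImage inter_subset_left, ⟨hk, hx⟩, inter_subset_right, ?_,
    inter_mem (nhdsWithin_mono _ hXM (ropen_nhds k.opn hk).2) self_mem_nhdsWithin, ?_⟩, ?_⟩
  · rintro _ ⟨y, hy, rfl⟩; exact s1 (k.e.mf hy.1)
  · filter_upwards [ch_back k hk hg] with z hz using ⟨_, ⟨k.e.mg hz.1, hz.2⟩, k.e.ri z hz.1⟩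
  · exact (up_nhds (s1 (k.e.mf hk))).trans (k.bd x hk).not.symm

theorem lv_pr {z : V} (h : z 2 = 0) : lv 0 ![z 0, z 1] = z := by
  funext i; fin_cases i
  exacts [rfl, rfl, h.symm]

theorem pl_pr {f : E → V} {K : Set E} (h : PLOn f K) : PLOn (fun y => (![f y 0, f y 1] : P)) K :=
  pl_pi fun i => by
    fin_cases i
    exacts [pl_apply h 0, pl_apply h 1]

theorem pl_lv0 (K : Set P) : PLOn (lv 0) K := pl_pi fun i => by
  fin_cases i
  exacts [pl_apply (plOn_id K) 0, pl_apply (plOn_id K) 1, plOn_const 0 K]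

theorem exists_gm2 (hM : MfE M dM) (hXM : X ⊆ M) (hx : x ∈ X ∩ dM) (hg : X ∈ 𝓝[M] x) :
    Nonempty (Gm 2 (X ∩ dM) univ x) := by
  obtain ⟨k, hk⟩ := hM.2 x (hXM hx.1)
  have l1 : ∀ y ∈ k.O ∩ (X ∩ dM), lv 0 ![k.e.f y 0, k.e.f y 1] = k.e.f y := fun y hy =>
    lv_pr ((k.bd y hy.1).1 hy.2.2)
  refine ⟨⟨k.O ∩ (X ∩ dM), {z | lv 0 z ∈ k.O' ∧ k.e.g (lv 0 z) ∈ X},
    ⟨fun y => ![k.e.f y 0, k.e.f y 1], fun z => k.e.g (lv 0 z), pl_pr (k.e.pf.mono inter_subset_left),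
      k.e.pg.comp (pl_lv0 _) fun z hz => hz.1, fun y hy => ?_, fun z hz => ?_, fun y hy => ?_,
      fun z hz => ?_⟩, ⟨hk, hx⟩, inter_subset_right, subset_univ _,
    inter_mem (nhdsWithin_mono _ (inter_subset_left.trans hXM) (ropen_nhds k.opn hk).2)
      self_mem_nhdsWithin, ?_⟩⟩
  · show lv 0 _ ∈ k.O' ∧ k.e.g (lv 0 _) ∈ X
    rw [l1 y hy, k.e.li y hy.1]; exact ⟨k.e.mf hy.1, hy.2.1⟩
  · exact ⟨k.e.mg hz.1, hz.2, (k.bd _ (k.e.mg hz.1)).2 (by rw [k.e.ri _ hz.1]; rfl)⟩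
  · rw [l1 y hy, k.e.li y hy.1]
  · rw [k.e.ri _ hz.1]; funext i; fin_cases i <;> rfl
  · have h1 : Tendsto (lv 0) (𝓝[univ] (![k.e.f x 0, k.e.f x 1] : P)) (𝓝[up] (k.e.f x)) := by
      have := ((pl_lv0 univ).1 ![k.e.f x 0, k.e.f x 1] trivial).tendsto_nhdsWithin (t := up)
        fun z _ => le_refl (0 : ℝ)
      rwa [l1 x ⟨hk, hx⟩] at this
    exact h1.eventually (ch_back k hk hg)

theorem dimK (hM : MfE M dM) (hXM : X ⊆ M) : ∀ σ ∈ KK T X, σ.card ≤ 3 + 1 := by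
  rintro _ ⟨x, hx, rfl⟩
  obtain ⟨k, hk⟩ := hM.2 x (hXM hx)
  exact dim_le subC_self hx (nhdsWithin_mono _ hXM (ropen_nhds k.opn hk).2) k.e.pf.1 k.e.injOn

theorem dimF (hM : MfE M dM) (hXM : X ⊆ M) (hs : T.Sub dM) : ∀ σ ∈ KK T (X ∩ dM), σ.card ≤ 2 + 1 := by
  rintro _ ⟨x, hx, rfl⟩
  obtain ⟨k, hk⟩ := hM.2 x (hXM hx.1)
  refine dim_le (subC_inter hs) hx (O := k.O ∩ (X ∩ dM))
    (inter_mem (nhdsWithin_mono _ (inter_subset_left.trans hXM) (ropen_nhds k.opn hk).2)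
      self_mem_nhdsWithin) (pl_pr (k.e.pf.mono inter_subset_left)).1 fun y hy z hz e => ?_
  refine k.e.injOn hy.1 hz.1 ?_
  rw [← lv_pr ((k.bd y hy.1).1 hy.2.2), ← lv_pr ((k.bd z hz.1).1 hz.2.2)]
  exact congrArg (lv 0) e

theorem eq_single {Y : Set E} {a : ι} (h : ({a} : Finset ι) ∈ KK T Y) : ∃ x ∈ Y, sp T x = {a} := h

/-- **the local manifold conditions**, in any ambient space -/
theorem ok_loc {G : Type} [AddGroup G] (D : Dat G) {Y : Set E} (T : Tri D.V Y) (hM : MfE M dM)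
    (hYM : Y ⊆ M) (hs : T.Sub dM) (hK : D.K = KK T Y) (hF : D.F = KK T (Y ∩ dM))
    (hA : ∀ a ∈ D.A, T.Good M a)
    (hc : Dsc37.Coc Dsc37.sub {σ | σ ∈ D.F ∧ Mt D.A σ} D.g) : D.OK ∧ D.Loc := by
  have gd : ∀ x ∈ Y, Mt D.A (sp T x) → Y ∈ 𝓝[M] x := fun x hx ⟨a, h1, h2⟩ =>
    hA a h2 x hx (mem_sp.1 h1)
  have dK := dimK (T := T) hM hYM
  have dF := dimF hM hYM hs
  have sF := subC_inter hs
  have uc : (univ : Set (Fin 2 → ℝ)) ⊆ closure (interior univ) := by simp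
  refine ⟨⟨?_, ?_, ?_, ?_, ?_, ?_, ?_, ?_, hc⟩, ?_, ?_, ?_, ?_⟩
  · rw [hK]
    exact ⟨by rintro _ ⟨y, hy, rfl⟩; exact sp_nonempty hy, fun σ hσ ρ h1 h2 => down subC_self hσ h1 h2⟩
  · rw [hF]
    exact ⟨by rintro _ ⟨y, hy, rfl⟩; exact sp_nonempty hy.1, fun σ hσ ρ h1 h2 => down sF hσ h1 h2⟩
  · rw [hK, hF]; rintro _ ⟨y, hy, rfl⟩; exact ⟨y, hy.1, rfl⟩
  · rw [hK]; exact dK
  · rw [hF]; exact dF
  · rw [hK, hF]
    rintro _ ⟨x, hx, rfl⟩ h1 h2 h3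
    obtain ⟨g, hg⟩ := exists_gm3 hM hYM hx (gd x hx h2)
    exact (g.count subC_self isClosed_up up_dense h1 dK).1 (hg.2 fun h => h3 ⟨x, ⟨hx, h⟩, rfl⟩)
  · rw [hK, hF]
    rintro _ ⟨x, hx, rfl⟩ h1 h2
    obtain ⟨g, hg⟩ := exists_gm3 hM hYM hx.1 (gd x hx.1 h2)
    exact (g.count subC_self isClosed_up up_dense h1 dK).2 fun h => hg.1 h hx.2
  · rw [hF]
    rintro _ ⟨x, hx, rfl⟩ h1 h2
    obtain ⟨g⟩ := exists_gm2 hM hYM hx (gd x hx.1 h2)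
    exact (g.count sF isClosed_univ uc h1 dF).1 univ_mem
  · rw [hK]
    rintro _ ⟨x, hx, rfl⟩ h2
    obtain ⟨g, -⟩ := exists_gm3 hM hYM hx (gd x hx h2)
    obtain ⟨τ, t1, t2, t3⟩ := g.pure (T := T) subC_self isClosed_up up_dense
    exact ⟨τ, t1, le_antisymm (dK τ t1) t2, t3⟩
  · rw [hK]
    rintro _ ⟨x, hx, rfl⟩ h1 h2
    obtain ⟨g, -⟩ := exists_gm3 hM hYM hx (gd x hx h2)
    exact g.conn subC_self isClosed_up up_dense convex_up (by omega)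
  · rw [hK]
    intro a ha
    by_cases h : ({a} : Finset D.V) ∈ KK T Y
    · obtain ⟨x, hx, h1⟩ := h
      obtain ⟨g, -⟩ := exists_gm3 hM hYM hx (gd x hx ⟨a, by rw [h1]; simp, ha⟩)
      exact g.vert subC_self h1
    · exact fun c _ => ⟨fun _ => 0, fun σ hσ =>
        (h (down subC_self hσ.1 (by simpa using hσ.2.1) (by simp))).elim⟩
  · rw [hF]
    rintro a ha ⟨x, hx, h1⟩
    obtain ⟨g⟩ := exists_gm2 hM hYM hx (gd x hx.1 ⟨a, by rw [h1]; simp, ha⟩)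
    have := g.conn sF isClosed_univ uc convex_univ (by rw [h1]; simp)
    simpa only [h1, Finset.singleton_subset_iff] using this

/-- **(LOC)** -/
theorem locStmt : Geo46.LocStmt := by
  intro Γ _ M dM c X hM g
  refine ok_loc X g.T (mfE_of_mf hM) g.YM g.sub (g.hK.trans simp_eq) (g.hF.trans (simpIn_eq g.sub))
    g.good fun σ hσ ρ hρ τ hτ h1 h2 => ?_
  obtain ⟨x, hx, e⟩ : τ ∈ KK g.T (g.Y ∩ dM) := by rw [← simpIn_eq g.sub, ← g.hF]; exact hτ.1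
  have m1 : x ∈ Geo46.ost g.T τ ∩ dM := ⟨⟨hx.1, by rw [supp_eq, e]⟩, hx.2⟩
  have m2 : x ∈ Geo46.ost g.T ρ ∩ dM := ⟨⟨hx.1, by rw [supp_eq, e]; exact h2⟩, hx.2⟩
  apply Additive.toMul.injective
  rw [toMul_add, g.geq σ hσ.1 hσ.2 τ hτ.1 (h1.trans h2) x m1, g.geq σ hσ.1 hσ.2 ρ hρ.1 h1 x m2,
    g.geq ρ hρ.1 hρ.2 τ hτ.1 h2 x m1]
  group

end Crest.Agent.X212.Loc49
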