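import Crest.Agent.X212.Tw9.Ch
import Crest.Agent.X212.Srf12.Loc

/-!
Row 212, layer T, package G-LOC (helper49), part 1: supports, local parametrisations, dimension,
purity and two-sidedness of a geometric complex which is locally a manifold.
-/

set_option autoImplicit false
set_option linter.style.longLine false
set_option linter.unusedSectionVars false

open Set Metric Filter Topology Module

namespace Crest.Agent.X212.Loc49

open Crest.Agent.R096.Ce_537 Crest.Agent.X212.Tw9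

theorem no_inj' {A B : Type*} [NormedAddCommGroup A] [NormedSpace ℝ A] [FiniteDimensional ℝ A]
    [NormedAddCommGroup B] [NormedSpace ℝ B] [FiniteDimensional ℝ B] (h : finrank ℝ B < finrank ℝ A)
    {U : Set A} (hU : IsOpen U) (hne : U.Nonempty) {g : A → B} (hg : ContinuousOn g U)
    (hi : InjOn g U) : False := by
  let a : A ≃L[ℝ] (Fin (finrank ℝ A) → ℝ) := ContinuousLinearEquiv.ofFinrankEq (by simp)
  let b : B ≃L[ℝ] (Fin (finrank ℝ B) → ℝ) := ContinuousLinearEquiv.ofFinrankEq (by simp)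
  obtain ⟨x, hx⟩ := hne
  exact Srf12.no_inj h (hU.preimage a.symm.continuous) ⟨a x, by simpa using hx⟩
    (g := fun y => b (g (a.symm y)))
    (b.continuous.comp_continuousOn (hg.comp a.symm.continuous.continuousOn fun y hy => hy))
    fun y hy y' hy' e => a.symm.injective (hi hy hy' (b.injective e))

variable {E : Type} [NormedAddCommGroup E] [NormedSpace ℝ E] {ι : Type} [Fintype ι] [DecidableEq ι]
  {X : Set E} (T : Tri ι X)

/-- the carrier of a point -/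
noncomputable def sp (y : E) : Finset ι := Finset.univ.filter fun u => 0 < T.be u y

/-- the simplices of a subcomplex -/
def KK (Y : Set E) : Set (Finset ι) := {σ | ∃ y ∈ Y, sp T y = σ}

variable {T}

theorem mem_sp {y : E} {u : ι} : u ∈ sp T y ↔ 0 < T.be u y := by simp [sp]

theorem not_mem_sp {y : E} (hy : y ∈ X) {u : ι} : u ∉ sp T y ↔ T.be u y = 0 := by
  rw [mem_sp, not_lt]
  exact ⟨fun h => le_antisymm h (T.nn y hy u), fun h => h.le⟩

theorem sp_sub_iff {y z : E} (hy : y ∈ X) (hz : z ∈ X) :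
    sp T y ⊆ sp T z ↔ ∀ u, T.be u z = 0 → T.be u y = 0 :=
  ⟨fun h u hu => (not_mem_sp hy).1 fun h' => (not_mem_sp hz).2 hu (h h'),
    fun h u hu => by
      by_contra hn
      exact (not_mem_sp hy).2 (h u ((not_mem_sp hz).1 hn)) hu⟩

theorem sp_nonempty {y : E} (hy : y ∈ X) : (sp T y).Nonempty := by
  by_contra hn
  have h := T.sum y hy
  rw [Finset.sum_eq_zero fun u _ => (not_mem_sp hy).1 fun h' => hn ⟨u, h'⟩] at h
  exact zero_ne_one h

theorem ev_sub {y : E} (hy : y ∈ X) : ∀ᶠ z in 𝓝[X] y, sp T y ⊆ sp T z := by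
  have : ∀ᶠ z in 𝓝[X] y, ∀ u ∈ sp T y, 0 < T.be u z :=
    (Finset.eventually_all _).2 fun u hu => (T.cont u y hy).eventually (lt_mem_nhds (mem_sp.1 hu))
  exact this.mono fun z hz u hu => mem_sp.2 (hz u hu)

theorem coord_inj {y y' : E} (hy : y ∈ X) (hy' : y' ∈ X) (u0 : ι)
    (h : ∀ u, u ≠ u0 → T.be u y = T.be u y') : y = y' := by
  have h0 : T.be u0 y = T.be u0 y' := by
    have h1 := T.sum y hy
    have h2 := T.sum y' hy'
    rw [← Finset.add_sum_erase _ _ (Finset.mem_univ u0)] at h1 h2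
    rw [Finset.sum_congr rfl fun u hu => h u (Finset.ne_of_mem_erase hu)] at h1
    linarith
  rw [← T.rep y hy, ← T.rep y' hy']
  exact Finset.sum_congr rfl fun u _ => by
    by_cases hu : u = u0
    · rw [hu, h0]
    · rw [h u hu]

/-- a subcomplex -/
structure SubC (T : Tri ι X) (Y : Set E) : Prop where
  sub : Y ⊆ X
  cl : ∀ y ∈ Y, ∀ y' ∈ X, sp T y' ⊆ sp T y → y' ∈ Y

theorem subC_self : SubC T X := ⟨Subset.rfl, fun _ _ _ h _ => h⟩

theorem subC_inter {A : Set E} (h : T.Sub A) : SubC T (X ∩ A) :=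
  ⟨inter_subset_left, fun y hy y' hy' hs => ⟨hy', h y hy.1 y' hy' hy.2 ((sp_sub_iff hy' hy.1).1 hs)⟩⟩

variable {Y : Set E}

theorem seg (hY : SubC T Y) {x y : E} (hx : x ∈ X) (hy : y ∈ Y) (h : sp T x ⊆ sp T y) {s : ℝ}
    (h0 : 0 < s) (h1 : s ≤ 1) : x + s • (y - x) ∈ Y ∧ sp T (x + s • (y - x)) = sp T y := by
  have hyX := hY.sub hy
  have e : ∀ u, T.be u x + s * (T.be u y - T.be u x) = (1 - s) * T.be u x + s * T.be u y :=
    fun u => by ring
  obtain ⟨h2, h3⟩ := T.line hx hyX ((sp_sub_iff hx hyX).1 h) (s := s) fun u => by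
    rw [e]; exact add_nonneg (mul_nonneg (by linarith) (T.nn x hx u)) (mul_nonneg h0.le (T.nn y hyX u))
  have h4 : sp T (x + s • (y - x)) = sp T y := by
    ext u
    rw [mem_sp, h3, e]
    constructor
    · intro h5
      by_contra hn
      rw [(not_mem_sp hyX).1 hn, (not_mem_sp hx).1 fun h' => hn (h h')] at h5
      simp at h5
    · intro h5
      exact add_pos_of_nonneg_of_pos (mul_nonneg (by linarith) (T.nn x hx u)) (mul_pos h0 (mem_sp.1 h5))
  exact ⟨hY.cl y hy _ h2 h4.le, h4⟩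

theorem near (hY : SubC T Y) {x : E} (hx : x ∈ X) {σ : Finset ι} (hσ : σ ∈ KK T Y) (h : sp T x ⊆ σ) :
    ∃ᶠ z in 𝓝[Y] x, sp T z = σ := by
  obtain ⟨y, hy, rfl⟩ := hσ
  have h1 : Tendsto (fun s : ℝ => x + s • (y - x)) (𝓝[>] 0) (𝓝[Y] x) := by
    refine tendsto_nhdsWithin_iff.2 ⟨?_, ?_⟩
    · have : Continuous fun s : ℝ => x + s • (y - x) := by fun_prop
      have h2 := this.tendsto 0
      rw [zero_smul, add_zero] at h2
      exact h2.mono_left nhdsWithin_le_nhds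
    · filter_upwards [Ioo_mem_nhdsGT one_pos] with s hs using (seg hY hx hy h hs.1 hs.2.le).1
  refine h1.frequently (Eventually.frequently ?_)
  filter_upwards [Ioo_mem_nhdsGT one_pos] with s hs using (seg hY hx hy h hs.1 hs.2.le).2

theorem down (hY : SubC T Y) {σ ρ : Finset ι} (hσ : σ ∈ KK T Y) (h : ρ ⊆ σ) (hne : ρ.Nonempty) :
    ρ ∈ KK T Y := by
  obtain ⟨y, hy, rfl⟩ := hσ
  have hc : (0 : ℝ) < ρ.card := by exact_mod_cast hne.card_pos
  obtain ⟨h1, h2⟩ := T.face y (hY.sub hy) (fun u => if u ∈ ρ then (ρ.card : ℝ)⁻¹ else 0)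
    (fun u => by split_ifs <;> positivity)
    (by rw [Finset.sum_ite_mem, Finset.univ_inter, Finset.sum_const, nsmul_eq_mul,
      mul_inv_cancel₀ hc.ne'])
    fun u hu => if_neg fun h' => (not_mem_sp (hY.sub hy)).2 hu (h h')
  have h3 : sp T (∑ u, (if u ∈ ρ then (ρ.card : ℝ)⁻¹ else 0) • T.pt u) = ρ := by
    ext u
    rw [mem_sp, h2]
    split_ifs with h4 <;> simp [h4, hc]
  exact ⟨_, hY.cl y hy _ h1 (h3.le.trans h), h3⟩

/-- local parametrisations at `x` -/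
theorem param (hY : SubC T Y) {x : E} (hx : x ∈ X) {u0 : ι} (hu0 : u0 ∈ sp T x) {A : Type*}
    [TopologicalSpace A] {a0 : A} {j : A → ι → ℝ} (hj : Continuous j) (j0 : j a0 = 0)
    (jp : ∀ a u, u ∉ sp T x → 0 ≤ j a u)
    (js : ∀ a, ∃ σ ∈ KK T Y, sp T x ⊆ σ ∧ ∀ u ∉ σ, j a u = 0) :
    ∃ m : A → E, Continuous m ∧ m a0 = x ∧
      ∀ᶠ a in 𝓝 a0, m a ∈ Y ∧ ∀ u, u ≠ u0 → T.be u (m a) = T.be u x + j a u := by
  set w : A → ι → ℝ := fun a u => T.be u x + j a u - if u = u0 then ∑ v, j a v else 0 with hw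
  have wc : ∀ u, Continuous fun a => w a u := fun u => by
    simp only [hw]; split_ifs <;> fun_prop
  have w0 : ∀ u, w a0 u = T.be u x := fun u => by simp [hw, j0]
  refine ⟨fun a => ∑ u, w a u • T.pt u, continuous_finsetSum _ fun u _ => (wc u).smul continuous_const,
    by simp only [w0]; exact T.rep x hx, ?_⟩
  have h1 : ∀ᶠ a in 𝓝 a0, ∀ u ∈ sp T x, 0 < w a u := (Finset.eventually_all _).2 fun u hu =>
    (wc u).continuousAt.eventually (lt_mem_nhds (show 0 < w a0 u by rw [w0]; exact mem_sp.1 hu))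
  filter_upwards [h1] with a ha
  obtain ⟨_, ⟨y, hy, rfl⟩, h2, h3⟩ := js a
  have hne : ∀ u, u ∉ sp T x → u ≠ u0 := fun u hu e => hu (e ▸ hu0)
  have h4 : ∀ u, u ∉ sp T y → w a u = 0 := fun u hu => by
    have h5 : u ∉ sp T x := fun h' => hu (h2 h')
    simp only [hw, if_neg (hne u h5), (not_mem_sp hx).1 h5, h3 u hu]; ring
  obtain ⟨h5, h6⟩ := T.face y (hY.sub hy) (w a) (fun u => by
      by_cases hu : u ∈ sp T x
      · exact (ha u hu).le
      · simp only [hw, if_neg (hne u hu), (not_mem_sp hx).1 hu]; linarith [jp a u hu])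
    (by simp only [hw, Finset.sum_sub_distrib, Finset.sum_add_distrib, T.sum x hx]; simp)
    fun u hu => h4 u ((not_mem_sp (hY.sub hy)).2 hu)
  refine ⟨hY.cl y hy _ h5 fun u hu => ?_, fun u hu => by rw [h6]; simp [hw, hu]⟩
  by_contra hn
  rw [mem_sp, h6, h4 u hn] at hu
  exact lt_irrefl _ hu

/-- extension by zero -/
def ez (s : Finset ι) (v : s → ℝ) (u : ι) : ℝ := if h : u ∈ s then v ⟨u, h⟩ else 0

theorem continuous_ez (s : Finset ι) : Continuous (ez s) := continuous_pi fun u => by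
  unfold ez; split_ifs <;> fun_prop

theorem finrank_fs (s : Finset ι) : finrank ℝ (s → ℝ) = s.card := by simp

/-- dimension -/
theorem dim_le (hY : SubC T Y) {x : E} (hx : x ∈ Y) {n : ℕ} {O : Set E} (hO : O ∈ 𝓝[Y] x)
    {φ : E → Fin n → ℝ} (hφ : ContinuousOn φ O) (hi : InjOn φ O) : (sp T x).card ≤ n + 1 := by
  by_contra hn
  have hxX := hY.sub hx
  obtain ⟨u0, hu0⟩ := sp_nonempty (T := T) hxX
  obtain ⟨m, mc, m0, hm⟩ := param hY hxX hu0 (a0 := 0) (continuous_ez ((sp T x).erase u0))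
    (by funext u; simp [ez])
    (fun a u hu => by rw [ez, dif_neg fun h => hu (Finset.mem_of_mem_erase h)])
    fun a => ⟨_, ⟨x, hx, rfl⟩, Finset.Subset.refl _, fun u hu =>
      dif_neg fun h => hu (Finset.mem_of_mem_erase h)⟩
  have h1 : Tendsto m (𝓝 0) (𝓝[Y] x) :=
    tendsto_nhdsWithin_iff.2 ⟨mc.tendsto' 0 x m0, hm.mono fun a ha => ha.1⟩
  obtain ⟨U, hU, Uo, U0⟩ := _root_.eventually_nhds_iff.1 (hm.and (h1 hO))
  refine no_inj' (A := ((sp T x).erase u0) → ℝ) (B := Fin n → ℝ) ?_ Uo ⟨0, U0⟩ (g := fun a => φ (m a))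
    (hφ.comp mc.continuousOn fun a ha => (hU a ha).2) fun a ha a' ha' e => ?_
  · rw [finrank_fs, Finset.card_erase_of_mem hu0, finrank_fin_fun]; omega
  · have h2 := hi (hU a ha).2 (hU a' ha').2 e
    funext u
    have h3 := (hU a ha).1.2 u (Finset.ne_of_mem_erase u.2)
    rw [h2, (hU a' ha').1.2 u (Finset.ne_of_mem_erase u.2)] at h3
    simpa [ez, u.2] using h3.symm

/-- a germ of a chart of `Y` at `x` with model `Q` -/
structure Gm (n : ℕ) (Y : Set E) (Q : Set (Fin n → ℝ)) (x : E) where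
  /-- domain -/
  O : Set E
  /-- range -/
  B : Set (Fin n → ℝ)
  /-- chart -/
  e : PLEquiv O B
  hx : x ∈ O
  OY : O ⊆ Y
  BQ : B ⊆ Q
  nO : O ∈ 𝓝[Y] x
  nB : B ∈ 𝓝[Q] (e.f x)

variable {n : ℕ} {Q : Set (Fin n → ℝ)} {x : E}

theorem Gm.small (g : Gm n Y Q x) {p : E → Prop} (h : ∀ᶠ y in 𝓝[Y] x, p y) :
    ∃ r > 0, ∀ z ∈ closedBall (g.e.f x) r ∩ Q, z ∈ g.B ∧ p (g.e.g z) := by
  have h1 : Tendsto g.e.g (𝓝[g.B] (g.e.f x)) (𝓝[Y] x) := by
    have := (g.e.pg.1 _ (g.e.mf g.hx)).tendsto_nhdsWithin (g.e.mg.mono_right g.OY)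
    rwa [g.e.li x g.hx] at this
  have h2 : ∀ᶠ z in 𝓝[Q] (g.e.f x), z ∈ g.B ∧ p (g.e.g z) :=
    Eventually.and g.nB ((h1.eventually h).filter_mono (nhdsWithin_le_iff.2 g.nB))
  obtain ⟨r, hr, h3⟩ := Metric.nhds_basis_closedBall.eventually_iff.1 (eventually_nhdsWithin_iff.1 h2)
  exact ⟨r, hr, fun z hz => h3 hz.1 hz.2⟩

theorem Gm.big (g : Gm n Y Q x) {N : Set (Fin n → ℝ)} (hN : N ∈ 𝓝 (g.e.f x)) :
    ∀ᶠ y in 𝓝[Y] x, y ∈ g.O ∧ g.e.f y ∈ N ∩ Q := by
  have h1 : ∀ᶠ y in 𝓝[g.O] x, g.e.f y ∈ N := g.e.pf.1 x g.hx hN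
  filter_upwards [g.nO, h1.filter_mono (nhdsWithin_le_iff.2 g.nO)] with y h2 h3
    using ⟨h2, h3, g.BQ (g.e.mf h2)⟩

theorem isClosed_simplex (τ : Finset ι) : IsClosed {y | y ∈ X ∧ sp T y ⊆ τ} := by
  have : {y | y ∈ X ∧ sp T y ⊆ τ} = X ∩ ⋂ u ∈ τᶜ, (X ∩ T.be u ⁻¹' {0}) := by
    ext y
    simp only [mem_ofPred_eq, mem_inter_iff, mem_iInter, Finset.mem_compl, mem_preimage, mem_singleton_iff]
    refine and_congr_right fun hy => ⟨fun h u hu => ⟨hy, (not_mem_sp hy).1 fun h' => hu (h h')⟩,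
      fun h u hu => ?_⟩
    by_contra hn
    exact (not_mem_sp hy).2 (h u hn).2 hu
  rw [this]
  exact T.cpt.isClosed.inter (isClosed_biInter fun u _ =>
    (T.cont u).preimage_isClosed_of_isClosed T.cpt.isClosed isClosed_singleton)

/-- purity -/
theorem Gm.pure (g : Gm n Y Q x) (hY : SubC T Y) (hQ : IsClosed Q) (hQ' : Q ⊆ closure (interior Q)) :
    ∃ τ ∈ KK T Y, n + 1 ≤ τ.card ∧ sp T x ⊆ τ := by
  by_contra hn
  have hxY := g.OY g.hx
  obtain ⟨r, hr, h⟩ := g.small ((ev_sub (T := T) (hY.sub hxY)).filter_mono (nhdsWithin_mono _ hY.sub))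
  set C := closedBall (g.e.f x) r ∩ Q with hC
  have Cc : IsClosed C := isClosed_closedBall.inter hQ
  have gc : ContinuousOn g.e.g C := g.e.pg.1.mono fun z hz => (h z hz).1
  have gY : ∀ z ∈ C, g.e.g z ∈ Y := fun z hz => g.OY (g.e.mg (h z hz).1)
  have h1 := Srf12.interior_empty (Finset.univ.filter fun τ : Finset ι => τ.Nonempty ∧ τ.card ≤ n)
    (fun τ => C ∩ g.e.g ⁻¹' {y | y ∈ X ∧ sp T y ⊆ τ})
    (fun τ => gc.preimage_isClosed_of_isClosed Cc (isClosed_simplex τ)) fun τ hτ => by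
      obtain ⟨⟨u0, hu0⟩, h2⟩ := (Finset.mem_filter.1 hτ).2
      by_contra hne
      refine no_inj' (A := Fin n → ℝ) (B := (τ.erase u0) → ℝ) ?_ isOpen_interior
        (nonempty_iff_ne_empty.2 hne) (g := fun z u => T.be u (g.e.g z))
        (continuousOn_pi.2 fun u => (T.cont u).comp (gc.mono (interior_subset.trans inter_subset_left))
          fun z hz => (interior_subset hz).2.1) fun z hz z' hz' e => ?_
      · have := Finset.card_pos.2 ⟨u0, hu0⟩
        rw [finrank_fs, Finset.card_erase_of_mem hu0, finrank_fin_fun]; omega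
      · obtain ⟨a1, a2, a3⟩ := interior_subset hz
        obtain ⟨b1, b2, b3⟩ := interior_subset hz'
        refine g.e.symm.injOn (h z a1).1 (h z' b1).1 (coord_inj (T := T) a2 b2 u0 fun u hu => ?_)
        by_cases hτ : u ∈ τ
        · exact congrFun e ⟨u, Finset.mem_erase.2 ⟨hu, hτ⟩⟩
        · exact ((not_mem_sp a2).1 fun h' => hτ (a3 h')).trans ((not_mem_sp b2).1 fun h' => hτ (b3 h')).symm
  obtain ⟨z, hz1, hz2⟩ := mem_closure_iff.1 (hQ' (g.BQ (g.e.mf g.hx))) _ isOpen_ball (mem_ball_self hr)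
  have h2 : z ∈ interior C := by
    rw [hC, interior_inter]
    exact ⟨interior_maximal ball_subset_closedBall isOpen_ball hz1, hz2⟩
  refine (h1 ▸ interior_mono (fun z hz => ?_) h2 : z ∈ (∅ : Set _))
  refine mem_biUnion (x := sp T (g.e.g z)) (Finset.mem_filter.2 ⟨Finset.mem_univ _,
    sp_nonempty (hY.sub (gY z hz)), ?_⟩) ⟨hz, hY.sub (gY z hz), Finset.Subset.refl _⟩
  by_contra h3
  exact hn ⟨_, ⟨_, gY z hz, rfl⟩, by omega, (h z hz).2⟩

/-- two top simplices on a facet fill a neighbourhood -/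
theorem Gm.two (g : Gm n Y Q x) (hY : SubC T Y) (hc : (sp T x).card = n) {u1 u2 : ι}
    (h1 : u1 ∉ sp T x) (h2 : u2 ∉ sp T x) (h12 : u1 ≠ u2) (k1 : insert u1 (sp T x) ∈ KK T Y)
    (k2 : insert u2 (sp T x) ∈ KK T Y) :
    Q ∈ 𝓝 (g.e.f x) ∧ ∀ u, u ∉ sp T x → insert u (sp T x) ∈ KK T Y → u = u1 ∨ u = u2 := by
  have hxX := hY.sub (g.OY g.hx)
  obtain ⟨u0, hu0⟩ := sp_nonempty (T := T) hxX
  set s := (sp T x).erase u0 with hs
  have ns : ∀ u, u ∉ sp T x → u ∉ s := fun u hu h => hu (Finset.mem_of_mem_erase h)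
  set j : (s → ℝ) × ℝ → ι → ℝ := fun a u =>
    ez s a.1 u + (if u = u1 then max a.2 0 else 0) + if u = u2 then max (-a.2) 0 else 0 with hj
  have jo : ∀ a u, u ∉ s → u ≠ u1 → u ≠ u2 → j a u = 0 := fun a u a1 a2 a3 => by
    simp [hj, ez, a1, a2, a3]
  have j1 : ∀ a, j a u1 = max a.2 0 := fun a => by simp [hj, ez, ns u1 h1, h12]
  have j2 : ∀ a, j a u2 = max (-a.2) 0 := fun a => by simp [hj, ez, ns u2 h2, h12.symm]
  have j3 : ∀ a (u : s), j a u = a.1 u := fun a u => by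
    have a1 : u.1 ≠ u1 := fun e => ns u1 h1 (e ▸ u.2)
    have a2 : u.1 ≠ u2 := fun e => ns u2 h2 (e ▸ u.2)
    simp [hj, ez, a1, a2]
  obtain ⟨m, mc, m0, hm⟩ := param hY hxX hu0 (a0 := 0) (j := j)
    (continuous_pi fun u => by
      have := (continuous_apply u).comp (continuous_ez s)
      simp only [hj]
      split_ifs <;> fun_prop)
    (by funext u; simp [hj, ez])
    (fun a u hu => by
      simp only [hj, ez, dif_neg (ns u hu)]
      split_ifs <;> positivity)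
    fun a => by
      rcases le_total 0 a.2 with h | h
      · refine ⟨_, k1, Finset.subset_insert _ _, fun u hu => ?_⟩
        rw [Finset.mem_insert, not_or] at hu
        by_cases e : u = u2
        · rw [e, j2, max_eq_right (by linarith)]
        · exact jo a u (ns u hu.2) hu.1 e
      · refine ⟨_, k2, Finset.subset_insert _ _, fun u hu => ?_⟩
        rw [Finset.mem_insert, not_or] at hu
        by_cases e : u = u1
        · rw [e, j1, max_eq_right h]
        · exact jo a u (ns u hu.2) e hu.1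
  have n1 : u1 ≠ u0 := fun e => h1 (e ▸ hu0)
  have n2 : u2 ≠ u0 := fun e => h2 (e ▸ hu0)
  have t1 : Tendsto m (𝓝 0) (𝓝[Y] x) :=
    tendsto_nhdsWithin_iff.2 ⟨mc.tendsto' 0 x m0, hm.mono fun a ha => ha.1⟩
  obtain ⟨U, hU, Uo, U0⟩ := _root_.eventually_nhds_iff.1 (hm.and (t1 g.nO))
  have op : IsOpen ((fun a => g.e.f (m a)) '' U) := by
    refine R105.Iod1_690.isOpen_image_fd ?_ Uo (g.e.pf.1.comp mc.continuousOn fun a ha => (hU a ha).2)
      fun a ha a' ha' e => ?_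
    · have := Finset.card_pos.2 ⟨u0, hu0⟩
      rw [finrank_prod, finrank_fs, hs, Finset.card_erase_of_mem hu0, finrank_fin_fun, finrank_self]
      omega
    · have h3 := g.e.injOn (hU a ha).2 (hU a' ha').2 e
      have h4 : ∀ u, u ≠ u0 → j a u = j a' u := fun u hu => by
        have h5 := (hU a ha).1.2 u hu
        rw [h3, (hU a' ha').1.2 u hu] at h5
        linarith
      refine Prod.ext (funext fun u => ?_) ?_
      · rw [← j3, ← j3]; exact h4 u (Finset.ne_of_mem_erase u.2)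
      · have h5 := h4 u1 n1
        have h6 := h4 u2 n2
        rw [j1, j1] at h5
        rw [j2, j2] at h6
        linarith [max_zero_sub_max_neg_zero_eq_self a.2, max_zero_sub_max_neg_zero_eq_self a'.2]
  have hN : (fun a => g.e.f (m a)) '' U ∈ 𝓝 (g.e.f x) := op.mem_nhds ⟨0, U0, by simp only [m0]⟩
  refine ⟨mem_of_superset hN (by rintro _ ⟨a, ha, rfl⟩; exact g.BQ (g.e.mf (hU a ha).2)),
    fun u hu hk => ?_⟩
  by_contra hn
  rw [not_or] at hn
  obtain ⟨z, hz, hzO, ⟨a, ha, e⟩, -⟩ :=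
    ((near hY hxX hk (Finset.subset_insert _ _)).and_eventually (g.big hN)).exists
  have h3 : m a = z := g.e.injOn (hU a ha).2 hzO e
  have h4 := (hU a ha).1.2 u fun e => hu (e ▸ hu0)
  rw [h3, (not_mem_sp hxX).1 hu, jo a u (ns u hu) hn.1 hn.2] at h4
  have h5 : u ∈ sp T z := hz ▸ Finset.mem_insert_self _ _
  rw [mem_sp, h4] at h5
  simp at h5

/-- one top simplex on a facet does not fill a neighbourhood -/
theorem Gm.one (g : Gm n Y Q x) (hY : SubC T Y) (hc : (sp T x).card = n) {u1 : ι} (h1 : u1 ∉ sp T x)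
    (k : ∀ u, u ∉ sp T x → insert u (sp T x) ∈ KK T Y → u = u1) : Q ∉ 𝓝 (g.e.f x) := by
  intro hQ
  have hxX := hY.sub (g.OY g.hx)
  obtain ⟨u0, hu0⟩ := sp_nonempty (T := T) hxX
  obtain ⟨r, hr, h⟩ := g.small ((ev_sub (T := T) hxX).filter_mono (nhdsWithin_mono _ hY.sub))
  set U := ball (g.e.f x) r ∩ interior Q with hU
  have Uo : IsOpen U := isOpen_ball.inter isOpen_interior
  have hU' : ∀ z ∈ U, z ∈ g.B ∧ g.e.g z ∈ X ∧ ∀ u, u ∉ sp T x → u ≠ u1 → T.be u (g.e.g z) = 0 := by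
    intro z hz
    obtain ⟨a1, a2⟩ := h z ⟨ball_subset_closedBall hz.1, interior_subset hz.2⟩
    have a3 := g.OY (g.e.mg a1)
    refine ⟨a1, hY.sub a3, fun u hu hu' => (not_mem_sp (hY.sub a3)).1 fun h' => hu' (k u hu ?_)⟩
    exact down hY ⟨_, a3, rfl⟩ (Finset.insert_subset h' a2) (Finset.insert_nonempty _ _)
  have gc : ∀ u, ContinuousOn (fun z => T.be u (g.e.g z)) U := fun u =>
    (T.cont u).comp (g.e.pg.1.mono fun z hz => (hU' z hz).1) fun z hz => (hU' z hz).2.1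
  have op : IsOpen ((fun z => ((fun u : (sp T x).erase u0 => T.be u (g.e.g z)), T.be u1 (g.e.g z))) '' U) := by
    refine R105.Iod1_690.isOpen_image_fd ?_ Uo ((continuousOn_pi.2 fun u : (sp T x).erase u0 => gc u).prodMk (gc u1))
      fun z hz z' hz' e => ?_
    · have := Finset.card_pos.2 ⟨u0, hu0⟩
      rw [finrank_prod, finrank_fs, Finset.card_erase_of_mem hu0, finrank_fin_fun, finrank_self]
      omega
    · refine g.e.symm.injOn (hU' z hz).1 (hU' z' hz').1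
        (coord_inj (T := T) (hU' z hz).2.1 (hU' z' hz').2.1 u0 fun u hu => ?_)
      by_cases h2 : u ∈ sp T x
      · exact congrFun (congrArg Prod.fst e) ⟨u, Finset.mem_erase.2 ⟨hu, h2⟩⟩
      · by_cases h3 : u = u1
        · rw [h3]; exact congrArg Prod.snd e
        · exact ((hU' z hz).2.2 u h2 h3).trans ((hU' z' hz').2.2 u h2 h3).symm
  have h2 := (isOpenMap_snd _ op).mem_nhds
    ⟨_, ⟨g.e.f x, ⟨mem_ball_self hr, mem_interior_iff_mem_nhds.2 hQ⟩, rfl⟩, rfl⟩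
  simp only [g.e.li x g.hx, (not_mem_sp hxX).1 h1] at h2
  obtain ⟨t, ⟨_, ⟨z, hz, rfl⟩, rfl⟩, ht⟩ :=
    ((show ∀ᶠ t in 𝓝[<] (0 : ℝ), _ from mem_nhdsWithin_of_mem_nhds h2).and self_mem_nhdsWithin).exists
  exact absurd (T.nn _ (hU' z hz).2.1 u1) (not_le.2 ht)

/-- the number of top simplices on a facet -/
theorem Gm.count (g : Gm n Y Q x) (hY : SubC T Y) (hQ : IsClosed Q) (hQ' : Q ⊆ closure (interior Q))
    (hc : (sp T x).card = n) (hd : ∀ σ ∈ KK T Y, σ.card ≤ n + 1) :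
    (Q ∈ 𝓝 (g.e.f x) → {τ | τ ∈ KK T Y ∧ τ.card = n + 1 ∧ sp T x ⊆ τ}.ncard = 2) ∧
    (Q ∉ 𝓝 (g.e.f x) → {τ | τ ∈ KK T Y ∧ τ.card = n + 1 ∧ sp T x ⊆ τ}.ncard = 1) := by
  have ins : ∀ τ : Finset ι, τ.card = n + 1 → sp T x ⊆ τ → ∃ u, u ∉ sp T x ∧ insert u (sp T x) = τ :=
    fun τ h1 h2 => Finset.exists_eq_insert_iff.2 ⟨h2, by omega⟩
  obtain ⟨τ, t1, t2, t3⟩ := g.pure hY hQ hQ'
  obtain ⟨u1, h1, rfl⟩ := ins τ (le_antisymm (hd τ t1) t2) t3
  have mem : ∀ u, u ∉ sp T x → insert u (sp T x) ∈ KK T Y →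
      insert u (sp T x) ∈ {τ | τ ∈ KK T Y ∧ τ.card = n + 1 ∧ sp T x ⊆ τ} := fun u hu hk =>
    ⟨hk, by rw [Finset.card_insert_of_notMem hu, hc], Finset.subset_insert _ _⟩
  by_cases k : ∀ u, u ∉ sp T x → insert u (sp T x) ∈ KK T Y → u = u1
  · refine ⟨fun h => (g.one hY hc h1 k h).elim, fun _ => ncard_eq_one.2 ⟨insert u1 (sp T x), ?_⟩⟩
    refine Subset.antisymm (fun τ hτ => ?_) (singleton_subset_iff.2 (mem u1 h1 t1))
    obtain ⟨u, hu, rfl⟩ := ins τ hτ.2.1 hτ.2.2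
    rw [k u hu hτ.1]; rfl
  · push Not at k
    obtain ⟨u2, h2, k2, h12⟩ := k
    obtain ⟨a1, a2⟩ := g.two hY hc h1 h2 h12.symm t1 k2
    refine ⟨fun _ => ncard_eq_two.2 ⟨insert u1 (sp T x), insert u2 (sp T x), fun e => ?_, ?_⟩,
      fun h => (h a1).elim⟩
    · have : u2 ∈ insert u1 (sp T x) := e ▸ Finset.mem_insert_self _ _
      exact (Finset.mem_insert.1 this).elim h12 h2
    · refine Subset.antisymm (fun τ hτ => ?_) (pair_subset (mem u1 h1 t1) (mem u2 h2 k2))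
      obtain ⟨u, hu, rfl⟩ := ins τ hτ.2.1 hτ.2.2
      rcases a2 u hu hτ.1 with rfl | rfl
      exacts [Or.inl rfl, Or.inr rfl]

end Crest.Agent.X212.Loc49
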