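import Crest.Agent.X212.Loc49.Bas
import Crest.Agent.X212.Dsc37.Tw

/-!
Row 212, layer T, package G-LOC (helper49), part 2: codimension two does not separate; punctured
stars of vertices carry no double cover.
-/

set_option autoImplicit false
set_option linter.style.longLine false
set_option linter.unusedSectionVars false

open Set Metric Filter Topology Module MeasureTheory

namespace Crest.Agent.X212.Loc49

open Crest.Agent.R096.Ce_537 Crest.Agent.X212.Tw9 Crest.Agent.X212.Lev33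
open Crest.Agent.X212.Prd34 (V P up lv)

theorem exists_off {n : ℕ} {κ : Type*} (I : Finset κ) (S : κ → Finset (Fin n → ℝ))
    (hS : ∀ i ∈ I, (S i).card ≤ n) {U : Set (Fin n → ℝ)} (hU : IsOpen U) (hne : U.Nonempty) :
    ∃ z ∈ U, ∀ i ∈ I, z ∉ affineSpan ℝ (S i : Set (Fin n → ℝ)) := by
  by_contra hn
  push Not at hn
  have h1 : volume (⋃ i ∈ I, (affineSpan ℝ (S i : Set (Fin n → ℝ)) : Set (Fin n → ℝ))) = 0 := by
    refine (measure_biUnion_null_iff I.countable_toSet).2 fun i hi => ?_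
    refine Measure.addHaar_affineSubspace volume _ fun h => ?_
    rcases (S i).eq_empty_or_nonempty with he | hne'
    · rw [he, Finset.coe_empty, AffineSubspace.span_empty] at h
      exact bot_ne_top h
    · obtain ⟨k, hk⟩ : ∃ k, (S i).card = k + 1 := Nat.exists_eq_succ_of_ne_zero hne'.card_pos.ne'
      have h2 := finrank_vectorSpan_image_finset_le ℝ (id : (Fin n → ℝ) → Fin n → ℝ) (S i) hk
      rw [Finset.image_id, ← direction_affineSpan, h, AffineSubspace.direction_top, finrank_top,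
        finrank_fin_fun] at h2
      have := hS i hi
      omega
  exact (hU.measure_pos volume hne).ne' (measure_mono_null (fun z hz => by
    obtain ⟨i, hi, h⟩ := hn z hz
    exact mem_biUnion hi h) h1)

theorem pre_diff {n : ℕ} {κ : Type*} (I : Finset κ) (S : κ → Finset (Fin n → ℝ))
    (hS : ∀ i ∈ I, (S i).card + 1 ≤ n) {C Z : Set (Fin n → ℝ)} (hC : Convex ℝ C)
    (hC' : C ⊆ closure (interior C))
    (hZ : ∀ z ∈ Z, z ∈ C → ∃ i ∈ I, z ∈ affineSpan ℝ (S i : Set (Fin n → ℝ))) :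
    IsPreconnected (C \ Z) := by
  classical
  set D : Set (Fin n → ℝ) := {z | z ∈ C ∧ ∀ i ∈ I, z ∉ affineSpan ℝ (S i : Set (Fin n → ℝ))} with hD
  have h1 : IsPreconnected D := by
    refine isPreconnected_of_forall_pair fun p hp q hq => ?_
    obtain ⟨r0, hr0⟩ := closure_nonempty_iff.1 ⟨p, hC' hp.1⟩
    obtain ⟨r, hr, hr'⟩ := exists_off (I ×ˢ ({p, q} : Finset _)) (fun a => insert a.2 (S a.1))
      (fun a ha => (Finset.card_insert_le _ _).trans (hS _ (Finset.mem_product.1 ha).1))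
      isOpen_interior ⟨r0, hr0⟩
    have sg : ∀ w ∈ D, w ∈ ({p, q} : Finset _) → segment ℝ w r ⊆ D := by
      intro w hw hw' z hz
      refine ⟨hC.segment_subset hw.1 (interior_subset hr) hz, fun i hi hzi => ?_⟩
      rw [segment_eq_image_lineMap] at hz
      obtain ⟨t, -, rfl⟩ := hz
      by_cases ht : t = 0
      · rw [ht, AffineMap.lineMap_apply_zero] at hzi; exact hw.2 i hi hzi
      · refine hr' (i, w) (Finset.mem_product.2 ⟨hi, hw'⟩) ?_
        have e : r = AffineMap.lineMap w (AffineMap.lineMap w r t) t⁻¹ := by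
          rw [AffineMap.lineMap_lineMap_right, inv_mul_cancel₀ ht, AffineMap.lineMap_apply_one]
        rw [e, Finset.coe_insert]
        exact AffineMap.lineMap_mem _ (mem_affineSpan ℝ (mem_insert _ _))
          (affineSpan_mono ℝ (subset_insert _ _) hzi)
    exact ⟨segment ℝ p r ∪ segment ℝ q r, union_subset (sg p hp (by simp)) (sg q hq (by simp)),
      Or.inl (left_mem_segment _ _ _), Or.inr (left_mem_segment _ _ _),
      IsPreconnected.union r (right_mem_segment _ _ _) (right_mem_segment _ _ _)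
        (convex_segment _ _).isPreconnected (convex_segment _ _).isPreconnected⟩
  refine h1.subset_closure (fun z hz => ⟨hz.1, fun h => ?_⟩) fun z hz => ?_
  · obtain ⟨i, hi, h2⟩ := hZ z h hz.1
    exact hz.2 i hi h2
  · refine mem_closure_iff.2 fun U hU hzU => ?_
    obtain ⟨w, hw, hw'⟩ := exists_off I S (fun i hi => by have := hS i hi; omega)
      (hU.inter isOpen_interior) (mem_closure_iff.1 (hC' hz.1) U hU hzU)
    exact ⟨w, hw.1, interior_subset hw.2, hw'⟩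

theorem ball_inter_dense {F : Type*} [PseudoMetricSpace F] {Q : Set F} (hQ : Q ⊆ closure (interior Q))
    (c : F) (r : ℝ) : ball c r ∩ Q ⊆ closure (interior (ball c r ∩ Q)) := fun z hz => by
  rw [interior_inter, isOpen_ball.interior_eq]
  exact isOpen_ball.inter_closure ⟨hz.1, hQ hz.2⟩

theorem prim_half {Γ : Type*} [Group Γ] {c : V} {r s : ℝ} (hr : 0 < r) (hs : |s| = 1) {d : V → V → Γ}
    (hd : Coc ((ball c r ∩ {y | 0 ≤ s * (y 2 - c 2)}) \ {c}) d) :
    ∃ b, Prim ((ball c r ∩ {y | 0 ≤ s * (y 2 - c 2)}) \ {c}) d b := by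
  have ss : s * s = 1 := by rw [← abs_mul_abs_self, hs]; ring
  set q : V := c + Pi.single 2 (s * (r / 2)) with hq
  have q2 : s * (q 2 - c 2) = r / 2 := by
    simp only [hq, Pi.add_apply, Pi.single_eq_same, add_sub_cancel_left]
    rw [← mul_assoc, ss, one_mul]
  have qb : q ∈ ball c r := by
    rw [mem_ball, dist_eq_norm, hq, add_sub_cancel_left, Pi.norm_single, Real.norm_eq_abs, abs_mul, hs,
      abs_of_pos (half_pos hr)]
    linarith
  have q3 : 0 ≤ s * (q 2 - c 2) := by rw [q2]; linarith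
  refine Coc.prim_star (x0 := q) (And.intro ⟨qb, q3⟩ fun h => ?_) ?_ hd
  · rw [show q = c from h, sub_self, mul_zero] at q2; linarith
  · intro y hy a b ha hb hab
    have e : s * ((a • q + b • y) 2 - c 2) = a * (r / 2) + b * (s * (y 2 - c 2)) := by
      rw [← q2]
      simp only [Pi.add_apply, Pi.smul_apply, smul_eq_mul]
      rw [show b = 1 - a by linarith]; ring
    have h1 : 0 ≤ s * (y 2 - c 2) := hy.1.2
    have h3 : 0 ≤ s * ((a • q + b • y) 2 - c 2) := by rw [e]; positivity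
    refine ⟨⟨convex_ball c r qb hy.1.1 ha hb hab, h3⟩, fun h => ?_⟩
    rw [show a • q + b • y = c from h, sub_self, mul_zero] at e
    have h2 : a = 0 := by nlinarith [mul_nonneg hb h1]
    rw [h2, show b = 1 by linarith, zero_smul, one_smul, zero_add] at h
    exact hy.2 h

theorem prim_ball {Γ : Type*} [Group Γ] {c : V} {r : ℝ} (hr : 0 < r) {d : V → V → Γ}
    (hd : Coc (ball c r \ {c}) d) : ∃ b, Prim (ball c r \ {c}) d b := by
  classical
  set A : ℝ → Set V := fun s => (ball c r ∩ {y | 0 ≤ s * (y 2 - c 2)}) \ {c} with hA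
  have sA : ∀ s, A s ⊆ ball c r \ {c} := fun s y hy => ⟨hy.1.1, hy.2⟩
  obtain ⟨b1, h1⟩ := prim_half (s := 1) hr (by simp) (hd.mono (sA 1))
  obtain ⟨b2, h2⟩ := prim_half (s := -1) hr (by simp) (hd.mono (sA (-1)))
  have hI : IsPreconnected (A 1 ∩ A (-1)) := by
    have h3 := pre_diff (n := 2) ({0} : Finset ℕ) (fun _ => {![c 0, c 1]}) (by simp)
      (convex_ball (![c 0, c 1] : P) r) (by rw [isOpen_ball.interior_eq]; exact subset_closure)
      (Z := {![c 0, c 1]}) fun z hz _ => ⟨0, by simp, mem_affineSpan ℝ (by simpa using hz)⟩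
    have lc : Continuous (lv (c 2)) := continuous_pi fun i => by
      fin_cases i
      exacts [continuous_apply (0 : Fin 2), continuous_apply (1 : Fin 2), continuous_const]
    convert h3.image _ lc.continuousOn using 1
    ext y
    constructor
    · rintro ⟨⟨⟨a1, a2⟩, a3⟩, ⟨-, a4⟩, -⟩
      have a5 : y 2 = c 2 := by
        have a6 : 0 ≤ 1 * (y 2 - c 2) := a2
        have a7 : 0 ≤ -1 * (y 2 - c 2) := a4
        linarith
      have a8 : lv (c 2) ![y 0, y 1] = y := by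
        funext i; fin_cases i
        exacts [rfl, rfl, a5.symm]
      refine ⟨![y 0, y 1], ⟨?_, fun h => a3 ?_⟩, a8⟩
      · rw [mem_ball, dist_pi_lt_iff hr] at a1 ⊢
        intro i; fin_cases i
        exacts [a1 0, a1 1]
      · funext i; fin_cases i
        exacts [congrFun h 0, congrFun h 1, a5]
    · rintro ⟨z, ⟨a1, a2⟩, rfl⟩
      have a3 : lv (c 2) z ∈ ball c r := by
        rw [mem_ball, dist_pi_lt_iff hr] at a1 ⊢
        intro i; fin_cases i
        exacts [a1 0, a1 1, by simpa [lv] using hr]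
      have a4 : lv (c 2) z ∉ ({c} : Set V) := fun h => a2 (by
        funext i; fin_cases i
        exacts [congrFun h 0, congrFun h 1])
      exact ⟨⟨⟨a3, by simp [lv]⟩, a4⟩, ⟨a3, by simp [lv]⟩, a4⟩
  obtain ⟨k, hk⟩ : ∃ k : Γ, ∀ y ∈ A 1 ∩ A (-1), b1 y = k * b2 y := by
    rcases (A 1 ∩ A (-1)).eq_empty_or_nonempty with he | ⟨x, hx⟩
    · exact ⟨1, by rw [he]; exact fun y hy => hy.elim⟩
    · exact ⟨_, fun y hy => (h2.mono inter_subset_right).uniq (h1.mono inter_subset_left) hI hx hy⟩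
  have rc : ∀ s t, RelCl (A s) (A t) := fun s t y hy hn => by
    rw [← notMem_closure_iff_nhdsWithin_eq_bot]
    intro h
    refine hn ⟨⟨hy.1.1, ?_⟩, hy.2⟩
    exact closure_minimal (fun z hz => hz.1.2)
      (isClosed_le continuous_const (by fun_prop) : IsClosed {y : V | 0 ≤ s * (y 2 - c 2)}) h
  refine ⟨fun y => if y ∈ A 1 then b1 y else k * b2 y, (Prim.union (rc 1 (-1)) (rc (-1) 1)
    (h1.congr' fun y hy => if_pos hy) ((h2.mul_left k).congr' fun y hy => ?_)).mono fun y hy => ?_⟩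
  · split_ifs with h
    · exact hk y ⟨h, hy⟩
    · rfl
  · rcases le_total (c 2) (y 2) with h | h
    · exact Or.inl ⟨⟨hy.1, show 0 ≤ 1 * (y 2 - c 2) by linarith⟩, hy.2⟩
    · exact Or.inr ⟨⟨hy.1, show 0 ≤ -1 * (y 2 - c 2) by linarith⟩, hy.2⟩

theorem prim_up {Γ : Type*} [Group Γ] {c : V} (hc : c ∈ up) {r0 : ℝ} (hr0 : 0 < r0) :
    ∃ r > 0, r ≤ r0 ∧ ∀ d : V → V → Γ, Coc ((ball c r ∩ up) \ {c}) d →
      ∃ b, Prim ((ball c r ∩ up) \ {c}) d b := by
  rcases (show 0 ≤ c 2 from hc).eq_or_lt with h | h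
  · have e : up = {y : V | 0 ≤ 1 * (y 2 - c 2)} := by ext y; simp [up, ← h]
    exact ⟨r0, hr0, le_rfl, fun d hd => by rw [e] at hd ⊢; exact prim_half hr0 (by simp) hd⟩
  · have e : ball c (min r0 (c 2)) ∩ up = ball c (min r0 (c 2)) := inter_eq_left.2 fun y hy => by
      have h1 := (dist_le_pi_dist y c 2).trans_lt (hy.trans_le (min_le_right _ _))
      rw [Real.dist_eq, abs_lt] at h1
      show 0 ≤ y 2
      linarith [h1.1]
    exact ⟨_, lt_min hr0 h, min_le_left _ _, fun d hd => by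
      rw [e] at hd ⊢; exact prim_ball (lt_min hr0 h) hd⟩

variable {E : Type} [NormedAddCommGroup E] [NormedSpace ℝ E] {ι : Type} [Fintype ι] [DecidableEq ι]
  {X : Set E} {T : Tri ι X} {Y : Set E} {n : ℕ} {Q : Set (Fin n → ℝ)} {x : E}

theorem mem_span {y : E} (hy : y ∈ X) (a : E →ᵃ[ℝ] (Fin n → ℝ)) :
    a y ∈ affineSpan ℝ (((sp T y).image fun u => a (T.pt u) : Finset (Fin n → ℝ)) : Set (Fin n → ℝ)) := by
  have h1 : ∑ u ∈ sp T y, T.be u y = 1 := by
    rw [← T.sum y hy]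
    exact Finset.sum_subset (Finset.subset_univ _) fun u _ hu => (not_mem_sp hy).1 hu
  have h2 : (sp T y).affineCombination ℝ T.pt (fun u => T.be u y) = y := by
    rw [Finset.affineCombination_eq_linear_combination _ _ _ h1]
    refine Eq.trans ?_ (T.rep y hy)
    exact Finset.sum_subset (Finset.subset_univ _) fun u _ hu => by rw [(not_mem_sp hy).1 hu, zero_smul]
  rw [← h2, Finset.map_affineCombination _ _ _ h1, h2, Finset.coe_image]
  exact affineCombination_mem_affineSpan_image h1 (fun u hu hu' => (hu' hu).elim) _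

/-- the star of a simplex of codimension at least two is not separated by the simplex -/
theorem Gm.conn (g : Gm n Y Q x) (hY : SubC T Y) (hQ : IsClosed Q) (hQ' : Q ⊆ closure (interior Q))
    (hQc : Convex ℝ Q) (hc : (sp T x).card + 1 ≤ n) :
    Dsc37.Conn Dsc37.sub {σ | σ ∈ KK T Y ∧ sp T x ⊆ σ ∧ σ ≠ sp T x} := by
  have hxX := hY.sub (g.OY g.hx)
  obtain ⟨τ, t1, t2, t3⟩ := g.pure hY hQ hQ'
  refine ⟨⟨τ, t1, t3, fun e => by rw [e] at t2; omega⟩, fun κ hκ => ?_⟩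
  obtain ⟨r, hr, h⟩ := g.small ((ev_sub (T := T) hxX).filter_mono (nhdsWithin_mono _ hY.sub))
  obtain ⟨-, S, hS⟩ := g.e.pf
  set C := ball (g.e.f x) r ∩ Q with hC
  have h' : ∀ z ∈ C, z ∈ g.B ∧ sp T x ⊆ sp T (g.e.g z) := fun z hz =>
    h z ⟨ball_subset_closedBall hz.1, hz.2⟩
  have gY : ∀ z ∈ C, g.e.g z ∈ Y := fun z hz => g.OY (g.e.mg (h' z hz).1)
  have hp := pre_diff S (fun a => (sp T x).image fun u => a (T.pt u))
    (fun a _ => (Nat.succ_le_succ Finset.card_image_le).trans hc) ((convex_ball _ _).inter hQc)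
    (ball_inter_dense hQ' (g.e.f x) r) (Z := {z | sp T (g.e.g z) = sp T x}) fun z hz hzC => by
      obtain ⟨a, ha, e⟩ := hS _ (g.e.mg (h' z hzC).1)
      rw [g.e.ri z (h' z hzC).1] at e
      refine ⟨a, ha, ?_⟩
      have h5 := mem_span (T := T) (hY.sub (gY z hzC)) a
      rw [← e, show sp T (g.e.g z) = sp T x from hz] at h5
      exact h5
  have hl : LCo (A := Prop) (C \ {z | sp T (g.e.g z) = sp T x}) fun z => κ (sp T (g.e.g z)) := by
    intro z hz
    have h1 : Tendsto g.e.g (𝓝[C \ {z | sp T (g.e.g z) = sp T x}] z) (𝓝[X] (g.e.g z)) :=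
      ((g.e.pg.1 z (h' z hz.1).1).mono fun w hw => (h' w hw.1).1).tendsto_nhdsWithin
        fun w hw => hY.sub (gY w hw.1)
    filter_upwards [h1 (ev_sub (T := T) (hY.sub (gY z hz.1))), self_mem_nhdsWithin] with w h2 h3
    exact propext (hκ _ ⟨⟨_, gY z hz.1, rfl⟩, (h' z hz.1).2, hz.2⟩ _
      ⟨⟨_, gY w h3.1, rfl⟩, (h' w h3.1).2, h3.2⟩ h2).symm
  have rep : ∀ σ ∈ {σ | σ ∈ KK T Y ∧ sp T x ⊆ σ ∧ σ ≠ sp T x},
      ∃ z ∈ C \ {z | sp T (g.e.g z) = sp T x}, sp T (g.e.g z) = σ := fun σ hσ => by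
    obtain ⟨y, h1, h2, h3⟩ :=
      ((near hY hxX hσ.1 hσ.2.1).and_eventually (g.big (ball_mem_nhds _ hr))).exists
    have h4 : sp T (g.e.g (g.e.f y)) = σ := by rw [g.e.li y h2, h1]
    exact ⟨_, ⟨h3, fun h5 => hσ.2.2 (h4.symm.trans h5)⟩, h4⟩
  intro σ hσ ρ hρ
  obtain ⟨z, hz, rfl⟩ := rep σ hσ
  obtain ⟨w, hw, rfl⟩ := rep ρ hρ
  exact iff_of_eq (hl.eq hp hz hw)

theorem convex_fib (hY : SubC T Y) (σ : Finset ι) : Convex ℝ {y | y ∈ Y ∧ sp T y = σ} := by
  intro y hy y' hy' a b ha hb hab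
  rcases hb.eq_or_lt with h | h
  · rw [← h, show a = 1 by linarith, one_smul, zero_smul, add_zero]; exact hy
  · obtain ⟨h1, h2⟩ := seg hY (hY.sub hy.1) hy'.1 (hy.2.trans hy'.2.symm).le h (by linarith)
    have e : a • y + b • y' = y + b • (y' - y) := by
      rw [show a = 1 - b by linarith, sub_smul, one_smul, smul_sub]; abel
    rw [e]; exact ⟨h1, h2.trans hy'.2⟩

/-- the punctured star of a vertex has no double cover -/
theorem Gm.vert (g : Gm 3 Y up x) (hY : SubC T Y) {a : ι} (ha : sp T x = {a}) :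
    Dsc37.H0 Dsc37.sub {σ | σ ∈ KK T Y ∧ a ∈ σ ∧ σ ≠ {a}} := by
  intro c hc
  have hxX := hY.sub (g.OY g.hx)
  have uniq : ∀ y ∈ X, sp T y = {a} → y = x := fun y hy h => coord_inj (T := T) hy hxX a fun u hu => by
    rw [(not_mem_sp hy).1 (by rw [h]; simpa using hu), (not_mem_sp hxX).1 (by rw [ha]; simpa using hu)]
  obtain ⟨r0, hr0, h⟩ := g.small ((ev_sub (T := T) hxX).filter_mono (nhdsWithin_mono _ hY.sub))
  obtain ⟨r, hr, hrr, H⟩ := prim_up (Γ := Multiplicative (ZMod 2)) (g.BQ (g.e.mf g.hx)) hr0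
  set N := (ball (g.e.f x) r ∩ up) \ {g.e.f x} with hN
  have h' : ∀ z ∈ N, z ∈ g.B ∧ g.e.g z ∈ Y ∧ sp T (g.e.g z) ∈ {σ | σ ∈ KK T Y ∧ a ∈ σ ∧ σ ≠ {a}} := by
    intro z hz
    obtain ⟨h1, h2⟩ := h z ⟨(ball_subset_closedBall.trans (closedBall_subset_closedBall hrr)) hz.1.1, hz.1.2⟩
    have h3 := g.OY (g.e.mg h1)
    refine ⟨h1, h3, ⟨_, h3, rfl⟩, h2 (by rw [ha]; simp), fun h4 => hz.2 ?_⟩
    exact (g.e.ri z h1).symm.trans (congrArg g.e.f (uniq _ (hY.sub h3) h4))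
  have ev : ∀ z ∈ N, ∀ᶠ w in 𝓝[N] z, sp T (g.e.g z) ⊆ sp T (g.e.g w) := fun z hz =>
    (((g.e.pg.1 z (h' z hz).1).mono fun w hw => (h' w hw).1).tendsto_nhdsWithin
      fun w hw => hY.sub (h' w hw).2.1) (ev_sub (T := T) (hY.sub (h' z hz).2.1))
  obtain ⟨b, hb⟩ := H (fun z w => Multiplicative.ofAdd (c (sp T (g.e.g z)) (sp T (g.e.g w)))) (by
    intro z hz
    filter_upwards [ev z hz, self_mem_nhdsWithin] with w h1 hw
    filter_upwards [ev w hw, self_mem_nhdsWithin] with v h2 hv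
    rw [hc _ (h' z hz).2.2 _ (h' w hw).2.2 _ (h' v hv).2.2 h1 h2, ofAdd_add])
  obtain ⟨ρ, hρ, hρ'⟩ := Metric.nhds_basis_ball.eventually_iff.1
    (eventually_nhdsWithin_iff.1 (g.big (ball_mem_nhds _ hr)))
  set D : Set E := (ball x ρ ∩ Y) \ {x} with hD
  have mD : MapsTo g.e.f D N := fun y hy => ⟨(hρ' hy.1.1 hy.1.2).2, fun h1 =>
    hy.2 (g.e.injOn (hρ' hy.1.1 hy.1.2).1 g.hx h1)⟩
  have DO : D ⊆ g.O := fun y hy => (hρ' hy.1.1 hy.1.2).1
  have hb' : ∀ y ∈ D, ∀ᶠ w in 𝓝[D] y, b (g.e.f w) = b (g.e.f y) *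
      Multiplicative.ofAdd (c (sp T y) (sp T w)) := fun y hy => by
    filter_upwards [hb.comp (g.e.pf.1.mono DO) mD y hy, self_mem_nhdsWithin] with w h1 h2
    rw [h1, g.e.li y (DO hy), g.e.li w (DO h2)]
  have inD : ∀ σ ∈ {σ | σ ∈ KK T Y ∧ a ∈ σ ∧ σ ≠ {a}}, ∀ y, y ∈ ball x ρ ∩ {y | y ∈ Y ∧ sp T y = σ} →
      y ∈ D := fun σ hσ y hy => ⟨⟨hy.1, hy.2.1⟩, fun h1 => hσ.2.2 (by
        rw [← hy.2.2, show y = x from h1, ha])⟩
  have same : ∀ σ ∈ {σ | σ ∈ KK T Y ∧ a ∈ σ ∧ σ ≠ {a}}, ∀ y ∈ ball x ρ ∩ {y | y ∈ Y ∧ sp T y = σ},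
      ∀ w ∈ ball x ρ ∩ {y | y ∈ Y ∧ sp T y = σ}, b (g.e.f y) = b (g.e.f w) := fun σ hσ y hy w hw => by
    refine LCo.eq (f := fun y => b (g.e.f y)) (fun z hz => ?_)
      ((convex_ball x ρ).inter (convex_fib hY σ)).isPreconnected hy hw
    filter_upwards [(hb' z (inD σ hσ z hz)).filter_mono (nhdsWithin_mono _ (inD σ hσ)),
      self_mem_nhdsWithin] with v h1 h2
    have h3 : c σ σ = 0 := by
      have := hc σ hσ σ hσ σ hσ (Finset.Subset.refl _) (Finset.Subset.refl _)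
      exact left_eq_add.1 this
    rw [h1, hz.2.2, h2.2.2, h3, ofAdd_zero, mul_one]
  have rep : ∀ σ ∈ {σ | σ ∈ KK T Y ∧ a ∈ σ ∧ σ ≠ {a}},
      ∃ y, y ∈ ball x ρ ∩ {y | y ∈ Y ∧ sp T y = σ} := fun σ hσ => by
    obtain ⟨y, h1, h2, h3⟩ := ((near hY hxX hσ.1 (by rw [ha]; simpa using hσ.2.1)).and_eventually
      ((show ∀ᶠ y in 𝓝[Y] x, y ∈ ball x ρ from mem_nhdsWithin_of_mem_nhds (ball_mem_nhds x hρ)).and
        self_mem_nhdsWithin)).exists
    exact ⟨y, h2, h3, h1⟩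
  choose! p hp using rep
  refine ⟨fun σ => Multiplicative.toAdd (b (g.e.f (p σ))), fun σ hσ τ hτ hst => ?_⟩
  have h1 := hp σ hσ
  have h2 : ∀ᶠ w in 𝓝[Y] (p σ), w ∈ D → b (g.e.f w) = b (g.e.f (p σ)) *
      Multiplicative.ofAdd (c (sp T (p σ)) (sp T w)) :=
    mem_nhdsWithin_of_mem_nhds (eventually_nhdsWithin_iff.1 (hb' _ (inD σ hσ _ h1)))
  obtain ⟨w, h3, h4, h5, h6⟩ := ((near hY (hY.sub h1.2.1) hτ.1 (h1.2.2.le.trans hst)).and_eventually
    (h2.and ((show ∀ᶠ w in 𝓝[Y] (p σ), w ∈ ball x ρ from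
      mem_nhdsWithin_of_mem_nhds (isOpen_ball.mem_nhds h1.1)).and self_mem_nhdsWithin))).exists
  have h7 : w ∈ ball x ρ ∩ {y | y ∈ Y ∧ sp T y = τ} := ⟨h5, h6, h3⟩
  show Multiplicative.toAdd _ = Multiplicative.toAdd _ + _
  rw [same τ hτ _ (hp τ hτ) w h7, h4 (inD τ hτ w h7), h1.2.2, h3, toAdd_mul, toAdd_ofAdd]

end Crest.Agent.X212.Loc49
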